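import Vale.Agent.P181.HO.Defs
import Vale.Agent.P181.SZR3.Col

set_option autoImplicit false

/-!
# P181, HO (HO2): the three vacuum blocks

`D ^ 2` and `D ^ 4` in three columns (`D` = the area of the triangle) and
`P₁ ^ 4 + P₂ ^ 4 + P₃ ^ 4` in four columns. A monomial with all the columns is found by the
operators `g ↦ g - (g with the column j put to zero)` and one evaluation.
-/

open MvPolynomial

namespace Vale.Agent.P181.HO.H752

open Vale.Agent.P181.T4 (HW rowOp mem_HW mem_HW_iff_isWeightedHomogeneous rowW)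
open Vale.Agent.P181.SZR3 (rowD rowD_X rowD_eq)
open Vale.Agent.P181.DG (PKT)

variable {m n : ℕ}

/-- The polynomials in the columns `Fin 0 ⊕ Fin n`. -/
abbrev Po (m n : ℕ) : Type := MvPolynomial (Fin m × (Fin 0 ⊕ Fin n)) ℂ

/-- The bracket of two columns. -/
noncomputable def br (r s : Fin m) (x y : Fin n) : Po m n :=
  X (r, Sum.inr x) * X (s, Sum.inr y) - X (s, Sum.inr x) * X (r, Sum.inr y)

/-- The bracket of two differences of columns. -/
noncomputable def pl (r s : Fin m) (x y z t : Fin n) : Po m n :=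
  br r s x z - br r s x t - br r s y z + br r s y t

/-! ### permutations -/

lemma rename_pl (r s : Fin m) (x y z t : Fin n) (e : Equiv.Perm (Fin 0))
    (f : Equiv.Perm (Fin n)) :
    rename (fun p : Fin m × (Fin 0 ⊕ Fin n) => (p.1, Sum.map e f p.2)) (pl r s x y z t) =
      pl r s (f x) (f y) (f z) (f t) := by
  simp only [pl, br, map_add, map_sub, map_mul, rename_X, Sum.map_inr]

/-! ### translations -/

/-- The translation of row `i`. -/
noncomputable def trD (i : Fin m) : Derivation ℂ (Po m n) (Po m n) :=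
  ∑ j : Fin n, pderiv (i, (Sum.inr j : Fin 0 ⊕ Fin n))

lemma trD_apply (i : Fin m) (f : Po m n) :
    trD i f = ∑ j : Fin n, pderiv (i, (Sum.inr j : Fin 0 ⊕ Fin n)) f :=
  SZR3.der_sum _ _ _

lemma trD_X (i k : Fin m) (x : Fin n) :
    trD i (X (k, Sum.inr x) : Po m n) = if k = i then 1 else 0 := by
  rw [trD_apply]
  simp only [SZR3.pderiv_X', Prod.mk.injEq, Sum.inr.injEq]
  by_cases h : k = i
  · simp [h]
  · simp [h]

lemma trD_pl (i r s : Fin m) (x y z t : Fin n) : trD i (pl r s x y z t) = 0 := by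
  simp only [pl, br, map_add, map_sub, Derivation.leibniz, trD_X, smul_eq_mul]
  ring

/-! ### rows -/

lemma rowD_pl {r s a i : Fin m} (hr : r ≠ i) (hs : s = i → a = r) (x y z t : Fin n) :
    rowD a i (pl r s x y z t) = 0 := by
  simp only [pl, br, map_add, map_sub, Derivation.leibniz, rowD_X, smul_eq_mul, if_neg hr]
  by_cases h : s = i
  · simp only [if_pos h, hs h]
    ring
  · simp only [if_neg h]
    ring

lemma wh_br (r s : Fin m) (x y : Fin n) :
    IsWeightedHomogeneous (rowW m (Fin 0 ⊕ Fin n)) (br r s x y)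
      (Pi.single r 1 + Pi.single s 1) := by
  have h1 : IsWeightedHomogeneous (rowW m (Fin 0 ⊕ Fin n))
      (X (r, Sum.inr x) * X (s, Sum.inr y) : Po m n) (Pi.single r 1 + Pi.single s 1) :=
    (isWeightedHomogeneous_X ℂ (rowW m (Fin 0 ⊕ Fin n)) (r, Sum.inr x)).mul
      (isWeightedHomogeneous_X ℂ (rowW m (Fin 0 ⊕ Fin n)) (s, Sum.inr y))
  have h2 : IsWeightedHomogeneous (rowW m (Fin 0 ⊕ Fin n))
      (X (s, Sum.inr x) * X (r, Sum.inr y) : Po m n) (Pi.single r 1 + Pi.single s 1) := by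
    rw [add_comm (Pi.single r 1 : Fin m → ℕ)]
    exact (isWeightedHomogeneous_X ℂ (rowW m (Fin 0 ⊕ Fin n)) (s, Sum.inr x)).mul
      (isWeightedHomogeneous_X ℂ (rowW m (Fin 0 ⊕ Fin n)) (r, Sum.inr y))
  exact (weightedHomogeneousSubmodule ℂ (rowW m (Fin 0 ⊕ Fin n)) _).sub_mem h1 h2

lemma wh_pl (r s : Fin m) (x y z t : Fin n) :
    IsWeightedHomogeneous (rowW m (Fin 0 ⊕ Fin n)) (pl r s x y z t)
      (Pi.single r 1 + Pi.single s 1) := by
  let M := weightedHomogeneousSubmodule ℂ (rowW m (Fin 0 ⊕ Fin n))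
    (Pi.single r 1 + Pi.single s 1)
  exact M.add_mem (M.sub_mem (M.sub_mem (wh_br r s x z) (wh_br r s x t)) (wh_br r s y z))
    (wh_br r s y t)

/-! ### column degrees -/

/-- Column degrees at most `d`. -/
def CD (d : ℕ) (f : Po m n) : Prop :=
  ∀ v, coeff v f ≠ 0 → ∀ j : Fin n, ∑ i, v (i, Sum.inr j) ≤ d

lemma CD.add {d : ℕ} {f g : Po m n} (hf : CD d f) (hg : CD d g) : CD d (f + g) := by
  intro v hv
  rw [coeff_add] at hv
  by_cases h : coeff v f = 0
  · rw [h, zero_add] at hv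
    exact hg v hv
  · exact hf v h

lemma CD.sub {d : ℕ} {f g : Po m n} (hf : CD d f) (hg : CD d g) : CD d (f - g) := by
  intro v hv
  rw [coeff_sub] at hv
  by_cases h : coeff v f = 0
  · rw [h, zero_sub] at hv
    exact hg v (fun h' => hv (by rw [h', neg_zero]))
  · exact hf v h

lemma CD.mul {d e : ℕ} {f g : Po m n} (hf : CD d f) (hg : CD e g) : CD (d + e) (f * g) := by
  classical
  intro v hv j
  rw [coeff_mul] at hv
  obtain ⟨⟨u1, u2⟩, hu, h⟩ := Finset.exists_ne_zero_of_sum_ne_zero hv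
  rw [Finset.HasAntidiagonal.mem_antidiagonal] at hu
  have h1 := hf u1 (left_ne_zero_of_mul h) j
  have h2 := hg u2 (right_ne_zero_of_mul h) j
  rw [← hu]
  simp only [Finsupp.add_apply, Finset.sum_add_distrib]
  omega

lemma CD.sq {d : ℕ} {f : Po m n} (hf : CD d f) : CD (d + d) (f ^ 2) := by
  rw [pow_two]
  exact hf.mul hf

lemma CD.pow4 {f : Po m n} (hf : CD 1 f) : CD 4 (f ^ 4) := by
  have h : f ^ 4 = (f ^ 2) ^ 2 := by rw [← pow_mul]
  rw [h]
  exact hf.sq.sq

lemma CD.mono {d e : ℕ} {f : Po m n} (hf : CD d f) (h : d ≤ e) : CD e f :=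
  fun v hv j => (hf v hv j).trans h

lemma CD_XX (r s : Fin m) {x y : Fin n} (hxy : x ≠ y) :
    CD 1 (X (r, Sum.inr x) * X (s, Sum.inr y) : Po m n) := by
  classical
  intro v hv j
  have h0 : (X (r, Sum.inr x) * X (s, Sum.inr y) : Po m n) =
      monomial (Finsupp.single (r, Sum.inr x) 1 + Finsupp.single (s, Sum.inr y) 1) 1 := by
    rw [X, X, monomial_mul, one_mul]
  rw [h0, coeff_monomial] at hv
  have h1 : Finsupp.single (r, Sum.inr x) 1 + Finsupp.single (s, Sum.inr y) 1 = v := by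
    by_contra h
    exact hv (if_neg h)
  rw [← h1]
  simp only [Finsupp.add_apply, Finset.sum_add_distrib]
  have h2 : ∀ (k : Fin m) (z : Fin n),
      ∑ i, (Finsupp.single (k, (Sum.inr z : Fin 0 ⊕ Fin n)) 1 : _ →₀ ℕ) (i, Sum.inr j) =
        if z = j then 1 else 0 := by
    intro k z
    simp only [Finsupp.single_apply, Prod.mk.injEq, Sum.inr.injEq]
    by_cases hz : z = j
    · simp [hz]
    · simp [hz]
  rw [h2, h2]
  by_cases hx : x = j
  · rw [if_pos hx, if_neg (fun hy => hxy (hx.trans hy.symm))]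
  · rw [if_neg hx]
    split_ifs <;> omega

lemma CD_br (r s : Fin m) (x y : Fin n) : CD 1 (br r s x y) := by
  by_cases hxy : x = y
  · have h : br r s x y = 0 := by
      rw [br, hxy]
      ring
    rw [h]
    intro v hv
    exact absurd (coeff_zero v) hv
  · exact (CD_XX r s hxy).sub (CD_XX s r hxy)

lemma CD_pl (r s : Fin m) (x y z t : Fin n) : CD 1 (pl r s x y z t) :=
  (((CD_br r s x z).sub (CD_br r s x t)).sub (CD_br r s y z)).add (CD_br r s y t)

/-! ### a monomial with all columns -/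

/-- Putting the column `j` to zero. -/
noncomputable def kl (j : Fin n) : Po m n →ₐ[ℂ] Po m n :=
  aeval fun q => if q.2 = Sum.inr j then 0 else X q

lemma kl_X (j x : Fin n) (k : Fin m) :
    kl j (X (k, Sum.inr x) : Po m n) = if x = j then 0 else X (k, Sum.inr x) := by
  rw [kl, aeval_X]
  simp only [Sum.inr.injEq]

lemma coeff_kl (j : Fin n) (f : Po m n) (v : Fin m × (Fin 0 ⊕ Fin n) →₀ ℕ) :
    coeff v (kl j f) = if ∑ i, v (i, Sum.inr j) = 0 then coeff v f else 0 := by
  classical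
  induction f using MvPolynomial.induction_on' with
  | monomial u a =>
    rw [kl, aeval_monomial]
    by_cases h : ∀ i, u (i, Sum.inr j) = 0
    · have h1 : (u.prod fun q k => (if q.2 = Sum.inr j then (0 : Po m n) else X q) ^ k) =
          u.prod fun q k => X q ^ k := by
        refine Finset.prod_congr rfl fun q hq => ?_
        have hq2 : q.2 ≠ Sum.inr j := by
          intro h2
          apply Finsupp.mem_support_iff.1 hq
          have : q = (q.1, Sum.inr j) := by rw [← h2]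
          rw [this]
          exact h q.1
        beta_reduce
        rw [if_neg hq2]
      rw [h1]
      have h3 : algebraMap ℂ (Po m n) a * (u.prod fun q k => X q ^ k) = monomial u a :=
        monomial_eq.symm
      rw [h3, coeff_monomial]
      by_cases huv : u = v
      · have h4 : ∑ i, v (i, Sum.inr j) = 0 := by
          rw [← huv]
          exact Finset.sum_eq_zero fun i _ => h i
        rw [if_pos h4]
      · rw [if_neg huv]
        split_ifs <;> rfl
    · push Not at h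
      obtain ⟨i, hi⟩ := h
      have h1 : (u.prod fun q k => (if q.2 = Sum.inr j then (0 : Po m n) else X q) ^ k) = 0 := by
        refine Finset.prod_eq_zero (Finsupp.mem_support_iff.2 hi) ?_
        beta_reduce
        rw [if_pos rfl, zero_pow hi]
      rw [h1, mul_zero, coeff_zero, coeff_monomial]
      by_cases huv : u = v
      · have h4 : ∑ i, v (i, Sum.inr j) ≠ 0 := by
          rw [← huv]
          intro h5
          exact hi (Finset.sum_eq_zero_iff.1 h5 i (Finset.mem_univ i))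
        rw [if_neg h4]
      · rw [if_neg huv]
        split_ifs <;> rfl
  | add p q hp hq =>
    rw [map_add, coeff_add, coeff_add, hp, hq]
    split_ifs
    · rfl
    · rw [add_zero]

/-- The part in which the columns of the list occur. -/
noncomputable def oc (L : List (Fin n)) (f : Po m n) : Po m n :=
  L.foldr (fun j g => g - kl j g) f

lemma coeff_oc (L : List (Fin n)) (f : Po m n) (v : Fin m × (Fin 0 ⊕ Fin n) →₀ ℕ)
    (h : coeff v (oc L f) ≠ 0) : coeff v f ≠ 0 ∧ ∀ j ∈ L, ∑ i, v (i, Sum.inr j) ≠ 0 := by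
  induction L with
  | nil => exact ⟨h, fun j hj => absurd hj List.not_mem_nil⟩
  | cons j L ih =>
    have h1 : coeff v (oc L f - kl j (oc L f)) ≠ 0 := h
    rw [coeff_sub, coeff_kl] at h1
    by_cases h2 : ∑ i, v (i, Sum.inr j) = 0
    · rw [if_pos h2, sub_self] at h1
      exact absurd rfl h1
    · rw [if_neg h2, sub_zero] at h1
      obtain ⟨h3, h4⟩ := ih h1
      refine ⟨h3, fun k hk => ?_⟩
      rcases List.mem_cons.1 hk with rfl | hk
      · exact h2
      · exact h4 k hk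

lemma exists_full (L : List (Fin n)) (hL : ∀ j, j ∈ L) (f : Po m n)
    (p : Fin m × (Fin 0 ⊕ Fin n) → ℂ) (h : eval p (oc L f) ≠ 0) :
    ∃ v, coeff v f ≠ 0 ∧ ∀ j : Fin n, ∑ i, v (i, Sum.inr j) ≠ 0 := by
  have h1 : oc L f ≠ 0 := by
    intro h0
    rw [h0, map_zero] at h
    exact h rfl
  obtain ⟨v, hv⟩ := MvPolynomial.ne_zero_iff.1 h1
  obtain ⟨h2, h3⟩ := coeff_oc L f v hv
  exact ⟨v, h2, fun j => h3 j (hL j)⟩

/-! ### membership -/

lemma mem_of {r s : Fin m} (hrv : (r : ℕ) = 0) (hsv : (s : ℕ) = 1) (d S : ℕ) (hS : d < S)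
    (f : Po m n) (hw : IsWeightedHomogeneous (rowW m (Fin 0 ⊕ Fin n)) f
      (d • (Pi.single r 1 + Pi.single s 1)))
    (hr : ∀ a i : Fin m, a < i → rowD a i f = 0) (hc : CD d f)
    (hp : ∀ (e : Equiv.Perm (Fin 0)) (g : Equiv.Perm (Fin n)),
      rename (fun p : Fin m × (Fin 0 ⊕ Fin n) => (p.1, Sum.map e g p.2)) f = f)
    (ht : ∀ i, trD i f = 0) : f ∈ PKT m S (Fin 0) (fun _ => 0) n (two m d) := by
  have hmu : two m d = d • (Pi.single r 1 + Pi.single s 1) := by
    funext i
    simp only [two, Pi.smul_apply, Pi.add_apply, Pi.single_apply, smul_eq_mul]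
    have hr' : i = r ↔ (i : ℕ) = 0 := by rw [Fin.ext_iff, hrv]
    have hs' : i = s ↔ (i : ℕ) = 1 := by rw [Fin.ext_iff, hsv]
    simp only [hr', hs']
    split_ifs <;> omega
  refine ⟨?_, fun v hv => ⟨fun j => j.elim0, fun j => (hc v hv j).trans_lt hS⟩,
    fun e g _ => hp e g, fun i => ?_⟩
  · rw [hmu, mem_HW_iff_isWeightedHomogeneous]
    exact ⟨hw, fun a i h => by rw [← rowD_eq]; exact hr a i h⟩
  · rw [← trD_apply]
    exact ht i

lemma der_sq (D : Derivation ℂ (Po m n) (Po m n)) {f : Po m n} (h : D f = 0) :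
    D (f ^ 2) = 0 := by
  rw [pow_two, Derivation.leibniz, h, smul_zero, add_zero]

lemma der_pow4 (D : Derivation ℂ (Po m n) (Po m n)) {f : Po m n} (h : D f = 0) :
    D (f ^ 4) = 0 := by
  have h1 : f ^ 4 = (f ^ 2) ^ 2 := by rw [← pow_mul]
  rw [h1]
  exact der_sq D (der_sq D h)

/-! ### three columns -/

/-- The area. -/
noncomputable def ar (r s : Fin m) : Po m 3 := pl r s 0 2 1 2

lemma rename_ar (r s : Fin m) (e : Equiv.Perm (Fin 0)) (g : Equiv.Perm (Fin 3)) :
    rename (fun p : Fin m × (Fin 0 ⊕ Fin 3) => (p.1, Sum.map e g p.2)) (ar r s) = ar r s ∨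
      rename (fun p : Fin m × (Fin 0 ⊕ Fin 3) => (p.1, Sum.map e g p.2)) (ar r s) =
        - ar r s := by
  have h01 : g 0 ≠ g 1 := fun h => absurd (g.injective h) (by decide)
  have h02 : g 0 ≠ g 2 := fun h => absurd (g.injective h) (by decide)
  have h12 : g 1 ≠ g 2 := fun h => absurd (g.injective h) (by decide)
  rw [ar, rename_pl]
  generalize g 0 = x at *
  generalize g 1 = y at *
  generalize g 2 = z at *
  simp only [pl, br]
  fin_cases x <;> fin_cases y <;> fin_cases z <;> simp at h01 h02 h12 <;>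
    simp only [Fin.mk_zero, Fin.mk_one, Fin.reduceFinMk, Fin.isValue, true_or] <;>
    first
      | (left; ring1)
      | (right; ring1)

/-- The point `(1, 0), (0, 1), (0, 1)`. -/
noncomputable def pt3 (r s : Fin m) : Fin m × (Fin 0 ⊕ Fin 3) → ℂ := fun q =>
  if q = (r, Sum.inr 0) ∨ q = (s, Sum.inr 1) ∨ q = (s, Sum.inr 2) then 1 else 0

lemma full_ar_sq {r s : Fin m} (hrs : r ≠ s) :
    ∃ v, coeff v (ar r s ^ 2) ≠ 0 ∧ ∀ j : Fin 3, ∑ i, v (i, Sum.inr j) ≠ 0 := by
  refine exists_full [0, 1, 2] (by decide) _ (pt3 r s) ?_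
  simp only [oc, List.foldr, ar, pl, br, map_add, map_sub, map_mul, map_pow, kl_X, eval_X]
  simp [kl_X, pt3, hrs, hrs.symm]
  norm_num

lemma full_ar_pow4 {r s : Fin m} (hrs : r ≠ s) :
    ∃ v, coeff v (ar r s ^ 4) ≠ 0 ∧ ∀ j : Fin 3, ∑ i, v (i, Sum.inr j) ≠ 0 := by
  refine exists_full [0, 1, 2] (by decide) _ (pt3 r s) ?_
  simp only [oc, List.foldr, ar, pl, br, map_add, map_sub, map_mul, map_pow, kl_X, eval_X]
  simp [kl_X, pt3, hrs, hrs.symm]
  norm_num

/-! ### four columns -/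

/-- The sum of the fourth powers. -/
noncomputable def qd (r s : Fin m) : Po m 4 :=
  pl r s 0 1 2 3 ^ 4 + pl r s 0 2 1 3 ^ 4 + pl r s 0 3 1 2 ^ 4

lemma pl_swap (r s : Fin m) (x y z t : Fin n) : pl r s y x z t = - pl r s x y z t := by
  simp only [pl, br]
  ring

lemma pl_swap' (r s : Fin m) (x y z t : Fin n) : pl r s x y t z = - pl r s x y z t := by
  simp only [pl, br]
  ring

lemma pl_exch (r s : Fin m) (x y z t : Fin n) : pl r s z t x y = - pl r s x y z t := by
  simp only [pl, br]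
  ring

lemma rename_qd (r s : Fin m) (e : Equiv.Perm (Fin 0)) (g : Equiv.Perm (Fin 4)) :
    rename (fun p : Fin m × (Fin 0 ⊕ Fin 4) => (p.1, Sum.map e g p.2)) (qd r s) = qd r s := by
  have he : e = 1 := Subsingleton.elim _ _
  subst he
  have hg : g ∈ Submonoid.closure (Set.range fun i : Fin 3 => Equiv.swap i.castSucc i.succ) := by
    rw [Equiv.Perm.mclosure_swap_castSucc_succ]
    trivial
  induction hg using Submonoid.closure_induction with
  | mem x hx =>
    obtain ⟨i, rfl⟩ := hx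
    rw [qd, map_add, map_add, map_pow, map_pow, map_pow, rename_pl, rename_pl, rename_pl]
    fin_cases i
    · have h0 : Equiv.swap (Fin.castSucc (0 : Fin 3)) (Fin.succ 0) 0 = 1 := by decide
      have h1 : Equiv.swap (Fin.castSucc (0 : Fin 3)) (Fin.succ 0) 1 = 0 := by decide
      have h2 : Equiv.swap (Fin.castSucc (0 : Fin 3)) (Fin.succ 0) 2 = 2 := by decide
      have h3 : Equiv.swap (Fin.castSucc (0 : Fin 3)) (Fin.succ 0) 3 = 3 := by decide
      simp only [Fin.mk_zero, h0, h1, h2, h3]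
      rw [pl_swap r s 0 1 2 3, pl_exch r s 0 3 1 2, pl_exch r s 0 2 1 3]
      ring
    · have h0 : Equiv.swap (Fin.castSucc (1 : Fin 3)) (Fin.succ 1) 0 = 0 := by decide
      have h1 : Equiv.swap (Fin.castSucc (1 : Fin 3)) (Fin.succ 1) 1 = 2 := by decide
      have h2 : Equiv.swap (Fin.castSucc (1 : Fin 3)) (Fin.succ 1) 2 = 1 := by decide
      have h3 : Equiv.swap (Fin.castSucc (1 : Fin 3)) (Fin.succ 1) 3 = 3 := by decide
      simp only [Fin.mk_one, h0, h1, h2, h3]
      rw [pl_swap' r s 0 3 1 2]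
      ring
    · have h0 : Equiv.swap (Fin.castSucc (2 : Fin 3)) (Fin.succ 2) 0 = 0 := by decide
      have h1 : Equiv.swap (Fin.castSucc (2 : Fin 3)) (Fin.succ 2) 1 = 1 := by decide
      have h2 : Equiv.swap (Fin.castSucc (2 : Fin 3)) (Fin.succ 2) 2 = 3 := by decide
      have h3 : Equiv.swap (Fin.castSucc (2 : Fin 3)) (Fin.succ 2) 3 = 2 := by decide
      simp only [Fin.reduceFinMk, h0, h1, h2, h3]
      rw [pl_swap' r s 0 1 2 3]
      ring
  | one =>
    have h : (fun p : Fin m × (Fin 0 ⊕ Fin 4) =>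
        (p.1, Sum.map (1 : Equiv.Perm (Fin 0)) (1 : Equiv.Perm (Fin 4)) p.2)) = id := by
      funext p
      rcases p with ⟨i, j | j⟩ <;> rfl
    rw [h, rename_id]
    rfl
  | mul x y _ _ hx hy =>
    have h : (fun p : Fin m × (Fin 0 ⊕ Fin 4) =>
        (p.1, Sum.map (1 : Equiv.Perm (Fin 0)) (x * y : Equiv.Perm (Fin 4)) p.2)) =
        (fun p : Fin m × (Fin 0 ⊕ Fin 4) => (p.1, Sum.map (1 : Equiv.Perm (Fin 0)) x p.2)) ∘
        (fun p : Fin m × (Fin 0 ⊕ Fin 4) => (p.1, Sum.map (1 : Equiv.Perm (Fin 0)) y p.2)) := by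
      funext p
      rcases p with ⟨i, j | j⟩ <;> rfl
    rw [h, ← rename_rename, hy, hx]

/-- The point `(1, 0), (-1, 0), (0, 1), (0, -1)`. -/
noncomputable def pt4 (r s : Fin m) : Fin m × (Fin 0 ⊕ Fin 4) → ℂ := fun q =>
  if q = (r, Sum.inr 0) ∨ q = (s, Sum.inr 2) then 1 else
    if q = (r, Sum.inr 1) ∨ q = (s, Sum.inr 3) then -1 else 0

lemma full_qd {r s : Fin m} (hrs : r ≠ s) :
    ∃ v, coeff v (qd r s) ≠ 0 ∧ ∀ j : Fin 4, ∑ i, v (i, Sum.inr j) ≠ 0 := by
  refine exists_full [0, 1, 2, 3] (by decide) _ (pt4 r s) ?_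
  simp only [oc, List.foldr, qd, pl, br, map_add, map_sub, map_mul, map_pow, kl_X, eval_X]
  simp [kl_X, pt4, hrs, hrs.symm]
  norm_num

/-- **(HO2)** -/
theorem vacBase : VacBase := by
  intro m S hm hS
  let r : Fin m := ⟨0, by omega⟩
  let s : Fin m := ⟨1, by omega⟩
  have hrs : r ≠ s := by
    intro h
    have := congrArg Fin.val h
    simp [r, s] at this
  have hr1 : ∀ a i : Fin m, a < i → r ≠ i := by
    intro a i h1 h2
    have h3 : (a : ℕ) < i := h1
    rw [← h2] at h3
    simp [r] at h3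
  have hs1 : ∀ a i : Fin m, a < i → s = i → a = r := by
    intro a i h1 h2
    have h3 : (a : ℕ) < i := h1
    rw [← h2] at h3
    apply Fin.ext
    simp only [r, s] at h3 ⊢
    omega
  refine ⟨⟨ar r s ^ 2, ?_, full_ar_sq hrs⟩, ⟨ar r s ^ 4, ?_, full_ar_pow4 hrs⟩,
    ⟨qd r s, ?_, full_qd hrs⟩⟩
  · refine mem_of (r := r) (s := s) rfl rfl 2 S (by omega) _ ((wh_pl r s _ _ _ _).pow 2)
      (fun a i h => der_sq _ (rowD_pl (hr1 a i h) (hs1 a i h) _ _ _ _)) (CD_pl r s _ _ _ _).sq
      (fun e g => ?_) (fun i => der_sq _ (trD_pl i r s _ _ _ _))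
    rw [map_pow]
    rcases rename_ar r s e g with h | h
    · rw [h]
    · rw [h, neg_sq]
  · refine mem_of (r := r) (s := s) rfl rfl 4 S (by omega) _ ((wh_pl r s _ _ _ _).pow 4)
      (fun a i h => der_pow4 _ (rowD_pl (hr1 a i h) (hs1 a i h) _ _ _ _))
      (CD_pl r s _ _ _ _).pow4 (fun e g => ?_) (fun i => der_pow4 _ (trD_pl i r s _ _ _ _))
    rw [map_pow]
    rcases rename_ar r s e g with h | h
    · rw [h]
    · rw [h, Even.neg_pow (by decide)]
  · have hw : ∀ x y z t : Fin 4, IsWeightedHomogeneous (rowW m (Fin 0 ⊕ Fin 4))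
        (pl r s x y z t ^ 4) (4 • (Pi.single r 1 + Pi.single s 1)) :=
      fun x y z t => (wh_pl r s x y z t).pow 4
    let M := weightedHomogeneousSubmodule ℂ (rowW m (Fin 0 ⊕ Fin 4))
      (4 • (Pi.single r 1 + Pi.single s 1))
    refine mem_of (r := r) (s := s) rfl rfl 4 S (by omega) _
      (M.add_mem (M.add_mem (hw _ _ _ _) (hw _ _ _ _)) (hw _ _ _ _))
      (fun a i h => ?_)
      (((CD_pl r s _ _ _ _).pow4.add (CD_pl r s _ _ _ _).pow4).add (CD_pl r s _ _ _ _).pow4)
      (rename_qd r s) (fun i => ?_)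
    · have h1 : ∀ x y z t : Fin 4, rowD a i (pl r s x y z t ^ 4) = 0 :=
        fun x y z t => der_pow4 _ (rowD_pl (hr1 a i h) (hs1 a i h) x y z t)
      rw [qd, map_add, map_add, h1, h1, h1, add_zero, add_zero]
    · have h1 : ∀ x y z t : Fin 4, trD i (pl r s x y z t ^ 4) = 0 :=
        fun x y z t => der_pow4 _ (trD_pl i r s x y z t)
      rw [qd, map_add, map_add, h1, h1, h1, add_zero, add_zero]

end Vale.Agent.P181.HO.H752
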